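import Vale.Agent.P336.R2.H836.CriticalMain

/-!
# P336: depth-three circuits whose bottom gates of critical width have limited views
-/

namespace Vale.Agent.Results.P336.CriticalViews

open Vale.Agent.P336

/-- There are an explicit language `L` (decided in deterministic polynomial time) and a constant
`C₀` such that for all `N, w, k, r, e ≥ 1` with `Z = 2 ^ (C₀ √w)`, `k Z ≤ N` and
`e r Z log N ≤ N`, every depth-three OR-AND-OR circuit for the slice of `L` of length `N` or for
its complement has at least `2 ^ (N / (r Z))` middle gates or at least that many bottom gates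
which read at least `N / r` variables, provided that the bottom gates of every middle gate, with
at most `e` exceptions, read at most `r` variables, or at least `N / r` variables, or have views
of size at most `k` and of total size at most `w N`. -/
theorem result : ∃ L : Set (List Bool), InP L ∧ ∃ C₀ : ℝ, ∀ N w k r e : ℕ,
    1 ≤ w → 1 ≤ k → 1 ≤ r → 1 ≤ e →
    (k : ℝ) * (2 : ℝ) ^ (C₀ * Real.sqrt w) ≤ N →
    (e : ℝ) * Real.log N * (r * (2 : ℝ) ^ (C₀ * Real.sqrt w)) ≤ N →
    ∀ C : Circuit N, (∀ j ∈ C.top, C.CriticalViewed e r k (w * N) j) →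
      ((∀ x, C.Accepts x ↔ slice L N x = true) ∨ (∀ x, C.Accepts x ↔ slice L N x = false)) →
      (2 : ℝ) ^ ((N : ℝ) / (r * (2 : ℝ) ^ (C₀ * Real.sqrt w))) ≤
        (max C.middle (C.wideCount r) : ℕ) :=
  ⟨R2.H836.lang2, R2.H524.inP_lang2, R2.H836.critical_main⟩

end Vale.Agent.Results.P336.CriticalViews
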