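import Vale.Agent.P336.R2.H746.FreeMain2

/-!
# P336: gates which are cylinder intersections in the functions of critical width
-/

namespace Vale.Agent.Results.P336.CylinderGates

open Vale.Agent.P336

/-- There are an explicit language `L` (decided in deterministic polynomial time) and a constant
`K` such that for `K R p ^ 2 2 ^ p N t ≤ S ^ 2`, `p S ≤ N`, `N ^ e ≤ 2 ^ t`,
`6 t + 2 √N ≤ k` and every set `G` of at most `2 ^ (R / 16 - 8)` disjunctions of literals every OR
of ANDs of arbitrary functions for the slice of `L` of length `N` or for its complement has at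
least `2 ^ t` AND gates or at least `2 ^ t` different functions which are false for at most
`2 ^ (N - k)` inputs, if for every AND gate there are `p` pairwise disjoint sets of at least `S`
variables such that every function under the gate, except for at most `e` disjunctions of `N`
functions of at most `R` variables, reads no variable of at least one of the sets, or reads at most
`R` variables of their union, or is false for at most `2 ^ (N - k)` inputs, or is in `G`. -/
theorem result : ∃ L : Set (List Bool), InP L ∧ ∃ K : ℕ, ∀ N p S R e k t : ℕ,
    1 ≤ N → 2 ≤ p → 1 ≤ R → 1 ≤ t → K * R * p ^ 2 * 2 ^ p * N * t ≤ S ^ 2 → p * S ≤ N →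
    N ^ e ≤ 2 ^ t → 6 * t + 2 * Nat.sqrt N ≤ k →
    ∀ (C : AnyCircuit N) (G : Finset ((Fin N → Bool) → Bool)),
      (∀ g ∈ G, IsOr g) → G.card * 256 ≤ 2 ^ (R / 16) →
      (∀ j, C.CylinderUpTo G e p S R k j) →
      ((∀ x, C.Accepts x ↔ slice L N x = true) ∨ (∀ x, C.Accepts x ↔ slice L N x = false)) →
      2 ^ t ≤ max C.middle (C.almostTrue k) :=
  Cyl.fmain2

end Vale.Agent.Results.P336.CylinderGates
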