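import Vale.Agent.P336.R2.H746.AnyMain

/-!
# P336: gates reading one block of each group
-/

namespace Vale.Agent.Results.P336.GroupedGates

open Vale.Agent.P336

/-- There are an explicit language `L` (decided in deterministic polynomial time) and a constant
`K` such that for `K p R ≤ G`, `P G s ≤ 2 N`, `(K R) ^ p ≤ s`, `K ^ p R k ≤ s` every OR of ANDs of
arbitrary functions for the slice of `L` of length `N` or for its complement, all of whose AND
gates are grouped, has at least `2 ^ (R ^ p)` AND gates. -/
theorem result : ∃ L : Set (List Bool), InP L ∧ ∃ K : ℕ, ∀ p R P G s k N : ℕ, 2 ≤ p → 1 ≤ R →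
    1 ≤ P → K * p * R ≤ G → P * G * s ≤ 2 * N → (K * R) ^ p ≤ s → K ^ p * R * k ≤ s →
    ∀ C : AnyCircuit N, (∀ j, C.Grouped P G s (p ^ 2) k j) →
      ((∀ x, C.Accepts x ↔ slice L N x = true) ∨ (∀ x, C.Accepts x ↔ slice L N x = false)) →
      2 ^ R ^ p ≤ C.middle :=
  R2.H746.main

end Vale.Agent.Results.P336.GroupedGates
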