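import Vale.Agent.P336.R2.H100.GenFin

/-!
# P336: depth-three circuits whose middle gates read few wide bottom gates
-/

namespace Vale.Agent.Results.P336.MiddleFanIn

open Vale.Agent.P336 Filter

/-- There is an explicit language `L` (decided in deterministic polynomial time) such that

(1) for every `δ > 0` there are `c > 0` and `C₀` such that for all large `n` and all `k` with
`C₀ log n ≤ k ≤ n ^ (1 - δ)`, every depth-three OR-AND-OR circuit which computes the membership
function of `L` on `{0,1}^n` or its complement, and in which every middle gate read by the top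
gate reads at most `2 ^ k` bottom gates of fan-in larger than `k` (and any number of others), has
at least `2 ^ (c n log (k / log n) / k)` middle gates;

(2) for every `a` between `0` and `1` there is `c > 0` such that for all large `n` every such
circuit whose middle gates have fan-in at most `2 ^ (n ^ a)` has at least
`2 ^ (c n ^ (1 - a) log n)` middle gates. -/
theorem result : ∃ L : Set (List Bool), InP L ∧
    (∀ δ : ℝ, 0 < δ → ∃ c : ℝ, 0 < c ∧ ∃ C₀ : ℝ, ∀ᶠ n : ℕ in atTop, ∀ k : ℕ,
      C₀ * Real.log n ≤ k → (k : ℝ) ≤ (n : ℝ) ^ (1 - δ) → ∀ C : Circuit n,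
        (∀ j ∈ C.top, {i | i ∈ C.conj j ∧ (k : ℕ∞) < (C.lits i).encard}.ncard ≤ 2 ^ k) →
        ((∀ x, C.Accepts x ↔ slice L n x = true) ∨ (∀ x, C.Accepts x ↔ slice L n x = false)) →
        (2 : ℝ) ^ (c * (n * Real.log (k / Real.log n) / k)) ≤ C.middle) ∧
    (∀ a : ℝ, 0 < a → a < 1 → ∃ c : ℝ, 0 < c ∧ ∀ᶠ n : ℕ in atTop, ∀ C : Circuit n,
      (∀ j ∈ C.top, ((C.conj j).ncard : ℝ) ≤ 2 ^ ((n : ℝ) ^ a)) →
      ((∀ x, C.Accepts x ↔ slice L n x = true) ∨ (∀ x, C.Accepts x ↔ slice L n x = false)) →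
      (2 : ℝ) ^ (c * ((n : ℝ) ^ (1 - a) * Real.log n)) ≤ C.middle) :=
  ⟨lang, inP_lang, fun _ hδ => H100.mainG hδ,
    fun _ h0 h1 => H100.fan_of_main (fun _ hδ => H100.mainG hδ) h0 h1⟩

end Vale.Agent.Results.P336.MiddleFanIn
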